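import Vale.Agent.P088.R2.H269.INF.Ev
import Vale.Agent.P088.R2.H168.INF.Spec2

/-!
# P088, stage 3, leaf iH, row O2: sizes of the weight with the top part of one slot

`W₀ + Θ(l(x))`, `W₀ + Θ(l(y))` at far pairs, levels below `l₀ + ℓ R`.
-/

open Set Filter
open scoped ContDiff Topology Matrix

noncomputable section

namespace Vale.Agent.P088.R2.H313.INF

open Vale.Agent.P088.LR Vale.Agent.P088.HY Vale.Agent.P088.R2.H464.Cu
open Vale.Agent.P088.R2.H644.Sy Vale.Agent.P088.R2.H644.Ch Vale.Agent.P088.R2.H644.Ep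
open Vale.Agent.P088.R2.H31.EP Vale.Agent.P088.R2.H475 Vale.Agent.P088.R2.H768.FarJ
open Vale.Agent.P088.R2.H961.GW Vale.Agent.P088.R2.H657.W Vale.Agent.P088.R2.H269.INF
open Vale.Agent.P088.R2.H168.INF (wX0 wY0 hX0 hY0)

variable {n : ℕ} {σ ℓ κ e₁ C₃ : ℝ}

/-- The conditions with the top part, levels below `l₀ + ℓ R`. -/
structure FT (n : ℕ) (ℓ κ σ e₁ C₃ : ℝ) (q : Cst) (d : Pk n) (e : ℝ) : Prop
    extends FC0 n ℓ κ σ e₁ C₃ q d e where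
  sΘ : ∀ t, 0 ≤ deriv d.Θ t
  bX : ∀ z ∈ UL ℓ κ q d, ∀ j, 1 ≤ j → j ≤ 3 →
    |iteratedDeriv (j + 1) d.Θ (d.l z.1)| ≤ sz (nx q d z) (bb q e (nx q d z)) j
  bY : ∀ z ∈ UL ℓ κ q d, ∀ j, 1 ≤ j → j ≤ 3 →
    |iteratedDeriv (j + 1) d.Θ (d.l z.2)| ≤ sz (ny q d z) (bb q e (ny q d z)) j

namespace FT

variable {e : ℝ} {q : Cst} {d : Pk n}

theorem nx_ge (h : FT n ℓ κ σ e₁ C₃ q d e) (z : VV n) : nn q d z ≤ nx q d z := by
  have := h.sΘ (d.l z.1)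
  unfold nx
  linarith

theorem ny_ge (h : FT n ℓ κ σ e₁ C₃ q d e) (z : VV n) : nn q d z ≤ ny q d z := by
  have := h.sΘ (d.l z.2)
  unfold ny
  linarith

end FT

section fam

variable {α : Type*} {q : α → Cst} {d : α → Pk n} {e : α → ℝ}

/-- The top parts. -/
theorem st_x (h : ∀ a, FT n ℓ κ σ e₁ C₃ (q a) (d a) (e a)) :
    Sg (fun a => UL ℓ κ (q a) (d a))
      (fun j a z => sz (nx (q a) (d a) z) (bb (q a) (e a) (nx (q a) (d a) z)) j) 3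
      (fun a => fderiv ℝ (tx (d a))) := by
  have hn : ∀ a, ∀ z ∈ UL ℓ κ (q a) (d a), 1 ≤ nx (q a) (d a) z := fun a z hz =>
    ((h a).n_ge hz).trans ((h a).nx_ge z)
  refine sg_Phi (fun a => (h a).UF_open) (gd_of (fun a => (h a).toFC0) hn)
    (fun a => ((h a).pk.lev.sm.comp contDiff_fst).contDiffOn) (fun a => (h a).pk.Θs)
    (s_lx fun a => (h a).toFC0.toFk) fun j hj => ⟨1, fun a z hz => ?_⟩
  rw [one_mul]
  rcases j with _ | j
  · rw [zero_add, iteratedDeriv_one, sz0, abs_of_nonneg ((h a).sΘ _)]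
    have := (h a).n_ge hz
    unfold nx
    linarith
  · exact (h a).bX z hz (j + 1) (by omega) hj

theorem st_y (h : ∀ a, FT n ℓ κ σ e₁ C₃ (q a) (d a) (e a)) :
    Sg (fun a => UL ℓ κ (q a) (d a))
      (fun j a z => sz (ny (q a) (d a) z) (bb (q a) (e a) (ny (q a) (d a) z)) j) 3
      (fun a => fderiv ℝ (ty (d a))) := by
  have hn : ∀ a, ∀ z ∈ UL ℓ κ (q a) (d a), 1 ≤ ny (q a) (d a) z := fun a z hz =>
    ((h a).n_ge hz).trans ((h a).ny_ge z)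
  refine sg_Phi (fun a => (h a).UF_open) (gd_of (fun a => (h a).toFC0) hn)
    (fun a => ((h a).pk.lev.sm.comp contDiff_snd).contDiffOn) (fun a => (h a).pk.Θs)
    (s_ly fun a => (h a).toFC0.toFk) fun j hj => ⟨1, fun a z hz => ?_⟩
  rw [one_mul]
  rcases j with _ | j
  · rw [zero_add, iteratedDeriv_one, sz0, abs_of_nonneg ((h a).sΘ _)]
    have := (h a).n_ge hz
    unfold ny
    linarith
  · exact (h a).bY z hz (j + 1) (by omega) hj

theorem W0_f0 (h : ∀ a, FT n ℓ κ σ e₁ C₃ (q a) (d a) (e a)) (a : α) {z : VV n}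
    (hz : z ∈ UL ℓ κ (q a) (d a)) : H168.INF.W0 (q a) (d a) z = f0 (q a) (d a) z :=
  W0_eq (h a).toFC0.toFk hz

/-- The sum of two graded derivatives. -/
theorem sg_sum {U : α → Set (VV n)} {γ : ℕ → α → VV n → ℝ} {f g : α → VV n → ℝ}
    (hU : ∀ a, IsOpen (U a)) (sf : ∀ a, ContDiffOn ℝ ∞ (f a) (U a))
    (sg : ∀ a, ContDiffOn ℝ ∞ (g a) (U a)) (hf : Sg U γ 3 fun a => fderiv ℝ (f a))
    (hg : Sg U γ 3 fun a => fderiv ℝ (g a)) :
    Sg U γ 3 fun a => fderiv ℝ fun z => f a z + g a z := by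
  refine (hf.add hU hg).congr hU fun a z hz => ?_
  have d1 := ((sf a).differentiableOn (by simp)).differentiableAt ((hU a).mem_nhds hz)
  have d2 := ((sg a).differentiableOn (by simp)).differentiableAt ((hU a).mem_nhds hz)
  exact (d1.hasFDerivAt.add d2.hasFDerivAt).fderiv

/-- **Uniform bounds over families.** -/
theorem top_fam (κe : 0 < e₁) (h : ∀ a, FT n ℓ κ σ e₁ C₃ (q a) (d a) (e a)) (hC : 0 ≤ C₃) :
    ∃ C, 0 ≤ C ∧ ∀ a, ∀ z ∈ UL ℓ κ (q a) (d a),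
      Sb4 (d a).sx (d a).sy (wX0 (q a) (d a)) C
        (sz (nx (q a) (d a) z) (bb (q a) (e a) (nx (q a) (d a) z))) z ∧
      Sb4 (d a).sx (d a).sy (wY0 (q a) (d a)) C
        (sz (ny (q a) (d a) z) (bb (q a) (e a) (ny (q a) (d a) z))) z := by
  have hU : ∀ a, IsOpen (UL ℓ κ (q a) (d a)) := fun a => (h a).UF_open
  have hn : ∀ a, ∀ z ∈ UL ℓ κ (q a) (d a), 1 ≤ nn (q a) (d a) z := fun a z hz => (h a).n_ge hz
  have hx : ∀ a, ∀ z ∈ UL ℓ κ (q a) (d a), 1 ≤ nx (q a) (d a) z := fun a z hz =>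
    ((h a).n_ge hz).trans ((h a).nx_ge z)
  have hy : ∀ a, ∀ z ∈ UL ℓ κ (q a) (d a), 1 ≤ ny (q a) (d a) z := fun a z hz =>
    ((h a).n_ge hz).trans ((h a).ny_ge z)
  have s1 : ∀ a, ContDiffOn ℝ ∞ (H168.INF.W0 (q a) (d a)) (UL ℓ κ (q a) (d a)) := fun a =>
    (sm_f0 κe (fun a => (h a).toFC0) a).congr fun z hz => W0_f0 h a hz
  have s2 : Sg (fun a => UL ℓ κ (q a) (d a))
      (fun j a z => sz (nn (q a) (d a) z) (bb (q a) (e a) (nn (q a) (d a) z)) j) 3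
      (fun a => fderiv ℝ (H168.INF.W0 (q a) (d a))) := by
    refine (sg_f0 κe (fun a => (h a).toFC0) hC).congr hU fun a z hz => ?_
    exact Filter.EventuallyEq.fderiv_eq (Filter.eventuallyEq_of_mem
      ((hU a).mem_nhds hz) fun y hy => W0_f0 h a hy)
  have g0 : ∀ j a, ∀ z ∈ UL ℓ κ (q a) (d a),
      0 ≤ sz (nn (q a) (d a) z) (bb (q a) (e a) (nn (q a) (d a) z)) j := fun j a z hz =>
    sz_nn (zero_le_one.trans (hn a z hz)) ((h a).bb_pos (hn a z hz)).le j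
  have sX : Sg (fun a => UL ℓ κ (q a) (d a))
      (fun j a z => sz (nx (q a) (d a) z) (bb (q a) (e a) (nx (q a) (d a) z)) j) 3
      (fun a => fderiv ℝ (H168.INF.W0 (q a) (d a))) :=
    s2.mono g0 fun j _ => ⟨1, fun a z hz => by
      rw [one_mul]
      exact sz_mono (zero_le_one.trans (hn a z hz)) ((h a).bb_pos (hn a z hz)).le
        ((h a).nx_ge z) ((h a).bb_mono ((h a).nx_ge z)) j⟩
  have sY : Sg (fun a => UL ℓ κ (q a) (d a))
      (fun j a z => sz (ny (q a) (d a) z) (bb (q a) (e a) (ny (q a) (d a) z)) j) 3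
      (fun a => fderiv ℝ (H168.INF.W0 (q a) (d a))) :=
    s2.mono g0 fun j _ => ⟨1, fun a z hz => by
      rw [one_mul]
      exact sz_mono (zero_le_one.trans (hn a z hz)) ((h a).bb_pos (hn a z hz)).le
        ((h a).ny_ge z) ((h a).bb_mono ((h a).ny_ge z)) j⟩
  have tX : ∀ a, ContDiffOn ℝ ∞ (tx (d a)) (UL ℓ κ (q a) (d a)) := fun a =>
    ((h a).pk.Θs.comp ((h a).pk.lev.sm.comp contDiff_fst)).contDiffOn
  have tY : ∀ a, ContDiffOn ℝ ∞ (ty (d a)) (UL ℓ κ (q a) (d a)) := fun a =>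
    ((h a).pk.Θs.comp ((h a).pk.lev.sm.comp contDiff_snd)).contDiffOn
  obtain ⟨C, C0, hC'⟩ := sb4 (fs_x fun a => (h a).toFk) (fs_y fun a => (h a).toFk)
    (fun a => ok_x (h a).toFk) (fun a => ok_y (h a).toFk) (gd_of (fun a => (h a).toFC0) hx)
    (f := fun a => wX0 (q a) (d a)) (fun a => (s1 a).add (tX a))
    (sg_sum hU s1 tX sX (st_x h))
  obtain ⟨C', C0', hC''⟩ := sb4 (fs_x fun a => (h a).toFk) (fs_y fun a => (h a).toFk)
    (fun a => ok_x (h a).toFk) (fun a => ok_y (h a).toFk) (gd_of (fun a => (h a).toFC0) hy)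
    (f := fun a => wY0 (q a) (d a)) (fun a => (s1 a).add (tY a))
    (sg_sum hU s1 tY sY (st_y h))
  refine ⟨C + C', by positivity, fun a z hz => ⟨?_, ?_⟩⟩
  · exact (hC' a z hz).mono (fun j => sz_nn (zero_le_one.trans (hx a z hz))
      ((h a).bb_pos (hx a z hz)).le j) (by linarith)
  · exact (hC'' a z hz).mono (fun j => sz_nn (zero_le_one.trans (hy a z hz))
      ((h a).bb_pos (hy a z hz)).le j) (by linarith)

end fam

/-- **The weight with the top part of one slot: all slot quantities.** -/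
theorem top_bd (n : ℕ) (ℓ κ σ e₁ C₃ : ℝ) : ∃ C, 0 ≤ C ∧ ∀ (q : Cst) (d : Pk n) (e : ℝ), 0 ≤ C₃ →
    FT n ℓ κ σ e₁ C₃ q d e → ∀ z ∈ UL ℓ κ q d,
      Sb4 d.sx d.sy (wX0 q d) C (sz (nx q d z) (bb q e (nx q d z))) z ∧
      Sb4 d.sx d.sy (wY0 q d) C (sz (ny q d z) (bb q e (ny q d z))) z := by
  by_cases h : 0 < e₁ ∧ 0 ≤ C₃
  · obtain ⟨C, C0, hC⟩ := top_fam (α := {p : Cst × Pk n × ℝ // FT n ℓ κ σ e₁ C₃ p.1 p.2.1 p.2.2})
      (q := fun a => a.1.1) (d := fun a => a.1.2.1) (e := fun a => a.1.2.2) h.1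
      (fun a => a.2) h.2
    exact ⟨C, C0, fun q d e _ hF z hz => hC ⟨(q, d, e), hF⟩ z hz⟩
  · refine ⟨0, le_rfl, fun q d e h1 hF z hz => absurd ⟨hF.e0, h1⟩ h⟩

/-- The conditions from the scalar conditions. -/
theorem ft_of {q : Cst} {d : Pk n} {e : ℝ} (s : Sc n q e) (t : ScT q e) (h : PkOk q d)
    {ℓ : ℝ} (hℓ : ℓ ≤ 5) : FT n ℓ q.κ₁ q.σ q.e₁ Cs3 q d e where
  toFC0 := s.fc0 h hℓ
  sΘ t := h.Θd0 (by linarith [s.R1]) t
  bX z hz j h1 h3 := by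
    have f := s.fc0 h hℓ
    refine th_sz h s.σ0 t ?_ h1 h3
    have := f.sn z hz
    have := f.G0 hz
    unfold nx H269.INF.nn
    linarith
  bY z hz j h1 h3 := by
    have f := s.fc0 h hℓ
    refine th_sz h s.σ0 t ?_ h1 h3
    have := f.sn z hz
    have := f.G0 hz
    unfold ny H269.INF.nn
    linarith

/-- The constant. -/
def Ct (n : ℕ) (q : Cst) : ℝ := (top_bd n (16 / 5) q.κ₁ q.σ q.e₁ Cs3).choose

theorem Ct_nb (n : ℕ) : NB_c' (Ct n) := fun _ => rfl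

theorem Ct_nn (n : ℕ) (q : Cst) : 0 ≤ Ct n q :=
  (top_bd n (16 / 5) q.κ₁ q.σ q.e₁ Cs3).choose_spec.1

/-- The pointwise facts. -/
structure FarT (n : ℕ) (q : Cst) (d : Pk n) (e : ℝ) : Prop where
  ft : FT n (16 / 5) q.κ₁ q.σ q.e₁ Cs3 q d e
  sc : Sc n q e
  st : ScT q e
  sb : ∀ z ∈ UL (16 / 5) q.κ₁ q d,
    Sb4 d.sx d.sy (wX0 q d) (Ct n q) (sz (nx q d z) (bb q e (nx q d z))) z ∧
    Sb4 d.sx d.sy (wY0 q d) (Ct n q) (sz (ny q d z) (bb q e (ny q d z))) z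

theorem ev_ft {n : ℕ} (hn : 1 ≤ n) {e : Cst → ℝ} (he : NB_c' e)
    (h0 : EvC fun q => 0 < e q ∧ e q ≤ 1) :
    EvC fun q => ∀ d : Pk n, PkOk q d → FarT n q d (e q) := by
  refine ((ev_sc hn he h0).and (ev_scT he h0)).mono fun q hq d hd => ?_
  have f := ft_of hq.1 hq.2 hd (ℓ := 16 / 5) (by norm_num)
  exact ⟨f, hq.1, hq.2, (top_bd n (16 / 5) q.κ₁ q.σ q.e₁ Cs3).choose_spec.2 q d (e q) Cs3_nn f⟩

end Vale.Agent.P088.R2.H313.INF
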