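import Vale.Agent.P088.R2.H168.INF.Half
import Vale.Agent.P088.R2.H168.INF.Spec2
import Vale.Agent.P088.R2.H644.W.Qf

/-!
# P088, stage 3, leaf iH, row O2: the facts of one slot from the sizes
-/

open Set Filter
open scoped ContDiff Topology Matrix

noncomputable section

namespace Vale.Agent.P088.R2.H313.INF

open Vale.Agent.P088.R2.H961.GW Vale.Agent.P088.R2.H960.W Vale.Agent.P088.R2.H644

variable {E ι κ : Type*} [NormedAddCommGroup E] [NormedSpace ℝ E] [Fintype ι] [Fintype κ]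
  {σ : Sl E ι} {τ : Sl E κ} {W : E → ℝ} {z : E}

theorem TH_HH (A : ι → ℝ) : Ch.TH σ τ W z A (fun _ => 0) = H168.INF.HH σ W z A := by
  unfold Ch.TH H168.INF.HH
  simp

theorem TH_HH' (B : κ → ℝ) : Ch.TH σ τ W z (fun _ => 0) B = H168.INF.HH τ W z B := by
  unfold Ch.TH H168.INF.HH
  simp

omit [NormedAddCommGroup E] [NormedSpace ℝ E] in
theorem ss_z : H168.INF.ss σ (fun _ => 0) z = 0 := by
  unfold H168.INF.ss
  simp

/-- Arithmetic of the row `o`. -/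
theorem o_ar {C s M F b X H : ℝ} (hC : 0 ≤ C) (hM : 1 ≤ M) (hs : 0 ≤ s)
    (hX : |X| ≤ C * (M * b ^ 2 * (1 + b))) (hb1 : 1 + b ≤ 2 * M)
    (hbb : 20000 * C * b ^ 2 ≤ s * M) (hH : 1 / 100 * s * M * F ≤ H)
    (hF : 1 / 100 * M ^ 2 ≤ F) : 2 * |X| ≤ 2 * H := by
  have h1 : C * (M * b ^ 2 * (1 + b)) ≤ C * (M * b ^ 2 * (2 * M)) := by gcongr
  have h2 : 20000 * C * b ^ 2 * (M ^ 2 / 10000) ≤ s * M * (M ^ 2 / 10000) :=
    mul_le_mul_of_nonneg_right hbb (by positivity)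
  have h3 : 1 / 100 * s * M * (1 / 100 * M ^ 2) ≤ 1 / 100 * s * M * F :=
    mul_le_mul_of_nonneg_left hF (by positivity)
  nlinarith

/-- Arithmetic of the row `w`. -/
theorem w_ar' {s h M F L G C b r N : ℝ} (hC : 0 ≤ C) (hM : 1 ≤ M) (hs : 0 ≤ s) (hs1 : s ≤ 1 / 4)
    (hh : 0 ≤ h) (hhM : h ≤ M) (hr : 0 < r) (hF : 1 / 100 * M ^ 2 ≤ F)
    (hL : |L| ≤ C * (M * b)) (hb : b ≤ M / r)
    (hG : |G| ≤ N * (2 * (1 / 100 * s * (h * (4 * M / r))) * (C * M)))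
    (hrr : 400 * (C + 8 * N * C) ≤ r) :
    1 / 100 * s * h * F / 4 + (1 / 100 * s * h) ^ 2 / 4 ≤
      1 / 100 * s * h * F / 2 + 2 / 3 * (1 / 100 * s * h * L + G) -
        3 * (1 / 10 ^ 6 * (s * h) ^ 2) := by
  set a := 1 / 100 * s * h with ha
  have a0 : 0 ≤ a := by positivity
  have h1 : a * (1 / 100 * M ^ 2) ≤ a * F := mul_le_mul_of_nonneg_left hF a0
  have h2 : |L| ≤ C * M ^ 2 / r := by
    refine hL.trans ?_
    calc C * (M * b) ≤ C * (M * (M / r)) := by gcongr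
      _ = _ := by ring
  have h3 : |a * L| ≤ a * (C * M ^ 2 / r) := by
    rw [abs_mul, abs_of_nonneg a0]
    exact mul_le_mul_of_nonneg_left h2 a0
  have h4 : |G| ≤ a * (8 * N * C * M ^ 2 / r) := by
    refine hG.trans (le_of_eq ?_)
    rw [ha]
    ring
  have h5 : |a * L + G| ≤ a * ((C + 8 * N * C) * M ^ 2 / r) := by
    refine (abs_add_le _ _).trans ((add_le_add h3 h4).trans (le_of_eq ?_))
    ring
  have h6 : (C + 8 * N * C) * M ^ 2 / r ≤ M ^ 2 / 400 := by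
    rw [div_le_div_iff₀ hr (by norm_num)]
    have := mul_le_mul_of_nonneg_right hrr (sq_nonneg M)
    linarith
  have h7 := (abs_le.1 (h5.trans (mul_le_mul_of_nonneg_left h6 a0))).1
  have h8 : s * h ≤ 1 / 4 * M ^ 2 := by
    have k1 : s * h ≤ 1 / 4 * M := mul_le_mul hs1 hhM hh (by norm_num)
    nlinarith
  have h9 : a * (s * h) ≤ a * (1 / 4 * M ^ 2) := mul_le_mul_of_nonneg_left h8 a0
  have h10 : a ^ 2 / 4 = a * (s * h) / 400 := by rw [ha]; ring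
  have h11 : 3 * (1 / 10 ^ 6 * (s * h) ^ 2) = 3 / 10 ^ 4 * (a * (s * h)) := by rw [ha]; ring
  rw [h10, h11]
  have h12 : 0 ≤ a * M ^ 2 := by positivity
  nlinarith

/-- **The facts of one slot.** -/
theorem own_of {s C M b r : ℝ} {h : E → ℝ} (hC : 0 ≤ C) (hM : 1 ≤ M) (hs : 0 ≤ s)
    (hs1 : s ≤ 1 / 4) (hh : 0 ≤ h z) (hhM : h z ≤ M) (hr : 0 < r)
    (ps : ∀ A : ι → ℝ, 0 ≤ H168.INF.ss σ A z)
    (hH : ∀ A : ι → ℝ, 1 / 100 * s * M * H168.INF.ss σ A z ≤ H168.INF.HH σ W z A)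
    (hF : 1 / 100 * M ^ 2 ≤ σ.F W z) (hS : ∀ i j, |σ.s i j z| ≤ 2)
    (hd : ∀ i, |σ.D i W z| ≤ C * M) (hL : |σ.Λ W z| ≤ C * (M * b))
    (hLL : |σ.Λ (σ.Λ W) z| ≤ C * (M * b ^ 2 * (1 + b))) (hb : b ≤ M / r) (hb1 : 1 + b ≤ 2 * M)
    (hbb : 20000 * C * b ^ 2 ≤ s * M)
    (hD : ∀ i, |σ.D i (fun z => 1 / 100 * s * h z) z| ≤ 1 / 100 * s * (h z * (4 * M / r)))
    (hrr : 400 * (C + 8 * (Fintype.card ι : ℝ) ^ 2 * C) ≤ r) :
    H168.INF.Own σ W (fun z => 1 / 100 * s * h z) (1 / 10 ^ 6 * (s * h z) ^ 2) z where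
  h A := by
    refine le_trans (mul_le_mul_of_nonneg_right ?_ (ps A)) (hH A)
    exact mul_le_mul_of_nonneg_left hhM (by positivity)
  o := by
    have h1 := o_ar hC hM hs hLL hb1 hbb (hH fun i => σ.D i W z) hF
    have h2 : 0 ≤ 1 / 10 ^ 6 * (s * h z) ^ 2 := by positivity
    linarith
  w := w_ar' hC hM hs hs1 hh hhM hr hF hL hb (H644.Sy.G_le hS hD hd) hrr

end Vale.Agent.P088.R2.H313.INF
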