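import Vale.Agent.P088.R2.H303.F.Gain
import Vale.Agent.P088.R2.H303.F.RowW
import Vale.Agent.P088.R2.H313.INF.O2a
import Vale.Agent.P088.R2.H313.INF.O2b

/-!
# P088, stage 3, leaf iH, row O2: far pairs, one level high, not deep
-/

open Set Filter
open scoped ContDiff Topology Matrix

noncomputable section

namespace Vale.Agent.P088.R2.H313.INF

open Vale.Agent.P088.LR Vale.Agent.P088.HY Vale.Agent.P088.R2.H464.Cu
open Vale.Agent.P088.R2.H31.EP Vale.Agent.P088.R2.H475 Vale.Agent.P088.R2.H768.FarJ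
open Vale.Agent.P088.R2.H961.GW Vale.Agent.P088.R2.H657.W Vale.Agent.P088.R2.H269.INF
open Vale.Agent.P088.R2.H644.Ch Vale.Agent.P088.R2.H230.W Vale.Agent.P088.R2.H404.INF
open Vale.Agent.P088.R2.H303.F (it2 PrF sm_far W0_wF wf_far ev_R₁ rowU ev_cert0 ev_gain rt_add)
open Vale.Agent.P088.R2.H168.INF (wX0 wY0 hX0 hY0 HH gA HH_eq_add HH_comp)

variable {n : ℕ} {q : Cst} {d : Pk n} {z : VV n} {e ℓ : ℝ}

/-- The slot derivatives of the levels. -/
theorem D_lev (h : PkOk q d) (z : VV n) (k : Fin n) :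
    d.sx.D k (fun z : VV n => d.l z.1) z = pd k d.l z.1 ∧
    d.sx.D k (fun z : VV n => d.l z.2) z = 0 ∧
    d.sy.D k (fun z : VV n => d.l z.1) z = 0 ∧
    d.sy.D k (fun z : VV n => d.l z.2) z = pd k d.l z.2 := by
  have dl : ∀ x : V n, DifferentiableAt ℝ d.l x := fun x =>
    h.lev.sm.differentiable (by simp) x
  refine ⟨?_, ?_, ?_, ?_⟩
  · have h : d.sx.D k (fun z : VV n => d.l z.1) z =
      fderiv ℝ (fun z : VV n => d.l z.1) z (Pi.single k 1, 0) := Dx1 (s := d.s₁) k _ z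
    rw [h, fd_fst (dl _)]; rfl
  · have h : d.sx.D k (fun z : VV n => d.l z.2) z =
      fderiv ℝ (fun z : VV n => d.l z.2) z (Pi.single k 1, 0) := Dx1 (s := d.s₁) k _ z
    rw [h, fd_snd (dl _), map_zero]
  · have h : d.sy.D k (fun z : VV n => d.l z.1) z =
      fderiv ℝ (fun z : VV n => d.l z.1) z (0, Pi.single k 1) := Dy1 (s := d.s₂) k _ z
    rw [h, fd_fst (dl _), map_zero]
  · have h : d.sy.D k (fun z : VV n => d.l z.2) z =
      fderiv ℝ (fun z : VV n => d.l z.2) z (0, Pi.single k 1) := Dy1 (s := d.s₂) k _ z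
    rw [h, fd_snd (dl _)]; rfl

/-- The gradient of the level is bounded. -/
theorem pd_le (hq : InfC q) (h : PkOk q d) {x : V n} (hx : d.l x ≤ d.l₀ q + 5 * q.R)
    (i : Fin n) : |pd i d.l x| ≤ 2 := by
  have e0 : d.l₀ q = lam0 q.R d.kap d.Gs := rfl
  have hl := h.lev.lit
  rw [e0, hl] at hx
  have h1 := grad_levG_le' hq.σ0 hq.σ1 hq.R0 hx
  rw [← hl] at h1
  have h2 : pd i d.l x ^ 2 ≤ ∑ i, pd i d.l x ^ 2 :=
    Finset.single_le_sum (f := fun i => pd i d.l x ^ 2) (fun _ _ => sq_nonneg _)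
      (Finset.mem_univ i)
  have h3 := hq.σ1
  have h4 : pd i d.l x ^ 2 ≤ 2 ^ 2 := by linarith
  exact abs_le_of_sq_le_sq h4 (by norm_num)

/-- **Size of `Φ''`.** -/
theorem P_le (s : Sc n q e) (h : PkOk q d) (hℓ : ℓ ≤ 5) (hz : z ∈ UL ℓ q.κ₁ q d) :
    |deriv (deriv d.Φ) (uf d.l z)| ≤
      deriv d.Φ (uf d.l z) * (H269.INF.nn q d z / q.R) := by
  have fk := s.fk h hℓ
  have hR := fk.R0
  have hκ := s.κ0
  have hM := s.M1
  have he := s.ep
  have hr₁ : 0 < q.r₁ := by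
    have := s.c0
    unfold Cst.r₁
    positivity
  have r0 : 0 < jr d z := Real.sqrt_pos.2 (lt_trans (by norm_num) (fk.r2_400 hz))
  have G0 : 0 < q.D 1 0 (jφ q d z, jr d z) := h.sl.G_pos _ r0
  have sn : q.M₀ ≤ deriv d.Φ (uf d.l z) := (h.ph.isΦ.n1 _).trans (h.top.l1 _)
  have n1 : 1 ≤ H269.INF.nn q d z := by unfold H269.INF.nn; linarith
  rw [← it2]
  rcases le_total (uf d.l z) (-(q.κ₁ * q.R / 40)) with hu | hu
  · have e1 := phi_neg h (j := 1) le_rfl (by norm_num) (u := uf d.l z) (by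
      have := l0_nn h s.R1 s.C1
      have : 0 ≤ q.κ₁ * q.R := by positivity
      unfold Pk.uth
      linarith)
    refine e1.trans ?_
    have e2 : K1 q * Real.exp (uf d.l z) ≤ e / q.R :=
      (mul_le_mul_of_nonneg_left (Real.exp_le_exp.2 hu) (K1_nn q)).trans s.PR
    have e3 : e / q.R ≤ 1 / q.R := div_le_div_of_nonneg_right s.el hR.le
    refine e2.trans (e3.trans ?_)
    rw [mul_div_assoc']
    refine div_le_div_of_nonneg_right ?_ hR.le
    nlinarith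
  · have e1 := phi_all h (by linarith) (j := 1) le_rfl (by norm_num) (uf d.l z)
    have e2 := G_lo fk hz s.cR s.s1 hr₁ s.GR hu
    have e3 : (K1 q + 1) ^ 2 / e * q.R ≤ H269.INF.nn q d z := by
      unfold H269.INF.nn; linarith
    have hK := K1_nn q
    have e4 : K1 q ≤ H269.INF.nn q d z / q.R := by
      rw [le_div_iff₀ hR]
      refine le_trans (mul_le_mul_of_nonneg_right ?_ hR.le) e3
      rw [le_div_iff₀ he]
      have := mul_le_mul_of_nonneg_left s.el hK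
      nlinarith
    refine e1.trans ?_
    rw [mul_comm]
    exact mul_le_mul_of_nonneg_left e4 (by linarith)

/-- `b ≤ m / √R`. -/
theorem bb_le (hR : 0 < q.R) (he1 : e ≤ 1) {m : ℝ} (hm : 1 ≤ m) :
    bb q e m ≤ m / √q.R := by
  have hs : 0 < √q.R := Real.sqrt_pos.2 hR
  have k1 : bb q e m ≤ √(m / q.R) := by
    unfold bb
    refine Real.sqrt_le_sqrt (div_le_div_of_nonneg_right ?_ hR.le)
    nlinarith
  refine k1.trans ?_
  rw [Real.sqrt_div (by linarith)]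
  gcongr
  rw [Real.sqrt_le_left (by linarith)]
  nlinarith

/-- **Size of `Θ''`.** -/
theorem T_le (s : Sc n q e) (t : ScT q e) (h : PkOk q d) {m τ : ℝ} (hm1 : 1 ≤ m)
    (hm : q.M₀ + deriv d.Θ τ ≤ m) : |deriv (deriv d.Θ) τ| ≤ m * (m / √q.R) := by
  have hR : 0 < q.R := by linarith [s.R1]
  have h1 := th_sz h s.σ0 t hm (j := 1) le_rfl (by norm_num)
  rw [show (1 + 1 : ℕ) = 2 from rfl, it2, sz1] at h1
  exact h1.trans (mul_le_mul_of_nonneg_left (bb_le hR s.el hm1) (by linarith))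

/-- The smoothness of `W₀`. -/
theorem sm_W0 (F : Fk n ℓ q.κ₁ q.σ q.e₁ q d) : Sm (UL ℓ q.κ₁ q d) (H168.INF.W0 q d) := by
  obtain ⟨R₁, hP⟩ := H303.F.prf_ex F.e0
  have w := wf_far F hP
  refine w.w.sm.congr fun z hz => ?_
  have h1 : H168.INF.W0 q d z = _ := W0_wF F hz
  rw [h1]
  unfold H303.F.wF
  ring

/-- The pointwise conditions of one slot. -/
structure Cd (n : ℕ) (q : Cst) (d : Pk n) (e : ℝ) (z : VV n) : Prop where
  ft : FarT n q d e
  hq : InfC q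
  hz : z ∈ UL (16 / 5) q.κ₁ q d
  ps : ∀ A : Fin n → ℝ, 0 ≤ H168.INF.ss d.sx A z
  pt : ∀ A : Fin n → ℝ, 0 ≤ H168.INF.ss d.sy A z
  c0 : ∀ A B : Fin n → ℝ, 1 / 100 * (q.σ / q.R) * H269.INF.nn q d z *
    (H168.INF.ss d.sx A z + H168.INF.ss d.sy B z) ≤ TH d.sx d.sy (H168.INF.W0 q d) z A B
  lx : ∀ A B : Fin n → ℝ, 1 / 50 * (q.σ / q.R) * H168.INF.ss d.sx A z ≤
    TH d.sx d.sy (fun z : VV n => d.l z.1) z A B
  ly : ∀ A B : Fin n → ℝ, 1 / 50 * (q.σ / q.R) * H168.INF.ss d.sy B z ≤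
    TH d.sx d.sy (fun z : VV n => d.l z.2) z A B
  b1 : ∀ i j, |d.sx.s i j z| ≤ 2
  b2 : ∀ i j, |d.sy.s i j z| ≤ 2
  eC : 20000 * Ct n q * e ≤ q.σ
  rC : 400 * (Ct n q + 8 * (n : ℝ) ^ 2 * Ct n q) ≤ √q.R

section slots

variable (c : Cd n q d e z)

include c

theorem Cd.fk : Fk n (16 / 5) q.κ₁ q.σ q.e₁ q d := c.ft.ft.toFC0.toFk

theorem Cd.nn1 : 1 ≤ H269.INF.nn q d z := c.ft.ft.toFC0.n_ge c.hz

theorem Cd.sn : q.M₀ ≤ deriv d.Φ (uf d.l z) := c.ft.ft.toFC0.sn z c.hz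

theorem Cd.G0 : 0 < q.D 1 0 (jφ q d z, jr d z) := c.ft.ft.toFC0.G0 c.hz

/-- The certificate in the slot `y`. -/
theorem Cd.cy (B : Fin n → ℝ) :
    1 / 100 * (q.σ / q.R) * ny q d z * H168.INF.ss d.sy B z ≤ HH d.sy (wY0 q d) z B := by
  have F := c.fk
  have hR := F.R0
  have hU := F.UF_open
  have hz := c.hz
  have ot := ok_y F
  have hl := F.pk.lev.sm
  have sl : Sm (UL (16 / 5) q.κ₁ q d) fun z : VV n => d.l z.2 :=
    (hl.comp contDiff_snd).contDiffOn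
  have c1 : ∀ {f : ℝ → ℝ}, ContDiff ℝ ∞ f → ContDiff ℝ ∞ (deriv f) := fun h =>
    (contDiff_infty_iff_deriv.1 h).2
  have d1 : ∀ {f : ℝ → ℝ}, ContDiff ℝ ∞ f → ∀ t, HasDerivAt f (deriv f t) t := fun h t =>
    (h.differentiable (by simp) t).hasDerivAt
  have hΘ := F.pk.Θs
  have cp : Cp (UL (16 / 5) q.κ₁ q d) (fun z : VV n => d.l z.2) d.Θ (deriv d.Θ)
      (deriv (deriv d.Θ)) := Cp.of sl hΘ (c1 hΘ) (d1 hΘ) (d1 (c1 hΘ))
  have h1 : HH d.sy (wY0 q d) z B = HH d.sy (H168.INF.W0 q d) z B +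
      (deriv d.Θ (d.l z.2) * HH d.sy (fun z : VV n => d.l z.2) z B +
        deriv (deriv d.Θ) (d.l z.2) * gA d.sy (fun z : VV n => d.l z.2) z B ^ 2) := by
    rw [← HH_comp ot cp hz B]
    exact HH_eq_add ot (sm_W0 F) cp.s0 hz B
  rw [h1]
  have k1 := c.c0 (fun _ => 0) B
  rw [TH_HH', ss_z, zero_add] at k1
  have k2 := c.ly (fun _ => 0) B
  rw [TH_HH'] at k2
  have k3 := F.pk.Θd0 hR (d.l z.2)
  have k4 := F.pk.Θcv hR (d.l z.2)
  have k5 := mul_le_mul_of_nonneg_left k2 k3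
  have k6 : 0 ≤ deriv (deriv d.Θ) (d.l z.2) * gA d.sy (fun z : VV n => d.l z.2) z B ^ 2 := by
    positivity
  have k7 : 0 ≤ deriv d.Θ (d.l z.2) * ((q.σ / q.R) * H168.INF.ss d.sy B z) := by
    have := c.pt B
    have := F.σ0
    positivity
  have e1 : 1 / 100 * (q.σ / q.R) * ny q d z * H168.INF.ss d.sy B z =
      1 / 100 * (q.σ / q.R) * H269.INF.nn q d z * H168.INF.ss d.sy B z +
      1 / 100 * (deriv d.Θ (d.l z.2) * ((q.σ / q.R) * H168.INF.ss d.sy B z)) := by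
    unfold ny; ring
  rw [e1]
  linarith

/-- The certificate in the slot `x`. -/
theorem Cd.cx (A : Fin n → ℝ) :
    1 / 100 * (q.σ / q.R) * nx q d z * H168.INF.ss d.sx A z ≤ HH d.sx (wX0 q d) z A := by
  have F := c.fk
  have hR := F.R0
  have hU := F.UF_open
  have hz := c.hz
  have ok := ok_x F
  have hl := F.pk.lev.sm
  have sl : Sm (UL (16 / 5) q.κ₁ q d) fun z : VV n => d.l z.1 :=
    (hl.comp contDiff_fst).contDiffOn
  have c1 : ∀ {f : ℝ → ℝ}, ContDiff ℝ ∞ f → ContDiff ℝ ∞ (deriv f) := fun h =>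
    (contDiff_infty_iff_deriv.1 h).2
  have d1 : ∀ {f : ℝ → ℝ}, ContDiff ℝ ∞ f → ∀ t, HasDerivAt f (deriv f t) t := fun h t =>
    (h.differentiable (by simp) t).hasDerivAt
  have hΘ := F.pk.Θs
  have cp : Cp (UL (16 / 5) q.κ₁ q d) (fun z : VV n => d.l z.1) d.Θ (deriv d.Θ)
      (deriv (deriv d.Θ)) := Cp.of sl hΘ (c1 hΘ) (d1 hΘ) (d1 (c1 hΘ))
  have h1 : HH d.sx (wX0 q d) z A = HH d.sx (H168.INF.W0 q d) z A +
      (deriv d.Θ (d.l z.1) * HH d.sx (fun z : VV n => d.l z.1) z A +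
        deriv (deriv d.Θ) (d.l z.1) * gA d.sx (fun z : VV n => d.l z.1) z A ^ 2) := by
    rw [← HH_comp ok cp hz A]
    exact HH_eq_add ok (sm_W0 F) cp.s0 hz A
  rw [h1]
  have k1 := c.c0 A (fun _ => 0)
  rw [TH_HH, ss_z, add_zero] at k1
  have k2 := c.lx A (fun _ => 0)
  rw [TH_HH] at k2
  have k3 := F.pk.Θd0 hR (d.l z.1)
  have k4 := F.pk.Θcv hR (d.l z.1)
  have k5 := mul_le_mul_of_nonneg_left k2 k3
  have k6 : 0 ≤ deriv (deriv d.Θ) (d.l z.1) * gA d.sx (fun z : VV n => d.l z.1) z A ^ 2 := by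
    positivity
  have k7 : 0 ≤ deriv d.Θ (d.l z.1) * ((q.σ / q.R) * H168.INF.ss d.sx A z) := by
    have := c.ps A
    have := F.σ0
    positivity
  have e1 : 1 / 100 * (q.σ / q.R) * nx q d z * H168.INF.ss d.sx A z =
      1 / 100 * (q.σ / q.R) * H269.INF.nn q d z * H168.INF.ss d.sx A z +
      1 / 100 * (deriv d.Θ (d.l z.1) * ((q.σ / q.R) * H168.INF.ss d.sx A z)) := by
    unfold nx; ring
  rw [e1]
  linarith

/-- The slot derivatives of the weights. -/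
theorem Cd.Dy (k : Fin n) : d.sy.D k (wY0 q d) z =
    d.sy.D k (H168.INF.W0 q d) z + deriv d.Θ (d.l z.2) * pd k d.l z.2 := by
  have F := c.fk
  have hl := F.pk.lev.sm
  have sl : Sm (UL (16 / 5) q.κ₁ q d) fun z : VV n => d.l z.2 :=
    (hl.comp contDiff_snd).contDiffOn
  have c1 : ∀ {f : ℝ → ℝ}, ContDiff ℝ ∞ f → ContDiff ℝ ∞ (deriv f) := fun h =>
    (contDiff_infty_iff_deriv.1 h).2
  have d1 : ∀ {f : ℝ → ℝ}, ContDiff ℝ ∞ f → ∀ t, HasDerivAt f (deriv f t) t := fun h t =>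
    (h.differentiable (by simp) t).hasDerivAt
  have hΘ := F.pk.Θs
  have cp : Cp (UL (16 / 5) q.κ₁ q d) (fun z : VV n => d.l z.2) d.Θ (deriv d.Θ)
      (deriv (deriv d.Θ)) := Cp.of sl hΘ (c1 hΘ) (d1 hΘ) (d1 (c1 hΘ))
  have h1 : d.sy.D k (wY0 q d) z = d.sy.D k (H168.INF.W0 q d) z +
      d.sy.D k (fun z : VV n => d.Θ (d.l z.2)) z :=
    D_add d.sy F.UF_open (sm_W0 F) cp.s0 k c.hz
  rw [h1, D_comp F.UF_open cp k c.hz, (D_lev F.pk z k).2.2.2]

theorem Cd.Dx (k : Fin n) : d.sx.D k (wX0 q d) z =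
    d.sx.D k (H168.INF.W0 q d) z + deriv d.Θ (d.l z.1) * pd k d.l z.1 := by
  have F := c.fk
  have hl := F.pk.lev.sm
  have sl : Sm (UL (16 / 5) q.κ₁ q d) fun z : VV n => d.l z.1 :=
    (hl.comp contDiff_fst).contDiffOn
  have c1 : ∀ {f : ℝ → ℝ}, ContDiff ℝ ∞ f → ContDiff ℝ ∞ (deriv f) := fun h =>
    (contDiff_infty_iff_deriv.1 h).2
  have d1 : ∀ {f : ℝ → ℝ}, ContDiff ℝ ∞ f → ∀ t, HasDerivAt f (deriv f t) t := fun h t =>
    (h.differentiable (by simp) t).hasDerivAt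
  have hΘ := F.pk.Θs
  have cp : Cp (UL (16 / 5) q.κ₁ q d) (fun z : VV n => d.l z.1) d.Θ (deriv d.Θ)
      (deriv (deriv d.Θ)) := Cp.of sl hΘ (c1 hΘ) (d1 hΘ) (d1 (c1 hΘ))
  have h1 : d.sx.D k (wX0 q d) z = d.sx.D k (H168.INF.W0 q d) z +
      d.sx.D k (fun z : VV n => d.Θ (d.l z.1)) z :=
    D_add d.sx F.UF_open (sm_W0 F) cp.s0 k c.hz
  rw [h1, D_comp F.UF_open cp k c.hz, (D_lev F.pk z k).1]

/-- The slot derivatives of the multipliers. -/
theorem Cd.Dh :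
    (∀ k, d.sx.D k (fun z => 1 / 100 * (q.σ / q.R) * hX0 q d z) z = 1 / 100 * (q.σ / q.R) *
      (deriv (deriv d.Φ) (uf d.l z) * pd k d.l z.1 +
        deriv (deriv d.Θ) (d.l z.1) * pd k d.l z.1)) ∧
    (∀ k, d.sy.D k (fun z => 1 / 100 * (q.σ / q.R) * hY0 q d z) z = 1 / 100 * (q.σ / q.R) *
      (deriv (deriv d.Φ) (uf d.l z) * pd k d.l z.2 +
        deriv (deriv d.Θ) (d.l z.2) * pd k d.l z.2)) := by
  have F := c.fk
  have hU := F.UF_open
  have hz := c.hz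
  have hl := F.pk.lev.sm
  have s1 : Sm (UL (16 / 5) q.κ₁ q d) fun z : VV n => d.l z.1 :=
    (hl.comp contDiff_fst).contDiffOn
  have s2 : Sm (UL (16 / 5) q.κ₁ q d) fun z : VV n => d.l z.2 :=
    (hl.comp contDiff_snd).contDiffOn
  have su : Sm (UL (16 / 5) q.κ₁ q d) (uf d.l) := s1.add s2
  have c1 : ∀ {f : ℝ → ℝ}, ContDiff ℝ ∞ f → ContDiff ℝ ∞ (deriv f) := fun h =>
    (contDiff_infty_iff_deriv.1 h).2
  have d1 : ∀ {f : ℝ → ℝ}, ContDiff ℝ ∞ f → ∀ t, HasDerivAt f (deriv f t) t := fun h t =>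
    (h.differentiable (by simp) t).hasDerivAt
  have hΘ := c1 F.pk.Θs
  have hΦ := c1 F.pk.top.sm
  have cu : Cp (UL (16 / 5) q.κ₁ q d) (uf d.l) (deriv d.Φ) (deriv (deriv d.Φ))
      (deriv (deriv (deriv d.Φ))) := Cp.of su hΦ (c1 hΦ) (d1 hΦ) (d1 (c1 hΦ))
  have cx : Cp (UL (16 / 5) q.κ₁ q d) (fun z : VV n => d.l z.1) (deriv d.Θ)
      (deriv (deriv d.Θ)) (deriv (deriv (deriv d.Θ))) :=
    Cp.of s1 hΘ (c1 hΘ) (d1 hΘ) (d1 (c1 hΘ))
  have cy : Cp (UL (16 / 5) q.κ₁ q d) (fun z : VV n => d.l z.2) (deriv d.Θ)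
      (deriv (deriv d.Θ)) (deriv (deriv (deriv d.Θ))) :=
    Cp.of s2 hΘ (c1 hΘ) (d1 hΘ) (d1 (c1 hΘ))
  constructor
  · intro k
    obtain ⟨x1, x2, -, -⟩ := D_lev F.pk z k
    have x3 : d.sx.D k (uf d.l) z = pd k d.l z.1 := by
      have := D_add d.sx hU s1 s2 k hz
      rw [x1, x2, add_zero] at this
      exact this
    have a1 : d.sx.D k (fun z => 1 / 100 * (q.σ / q.R) * hX0 q d z) z =
        1 / 100 * (q.σ / q.R) * d.sx.D k (hX0 q d) z :=
      D_cmul d.sx hU _ (cu.s0.add cx.s0) k hz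
    have a2 : d.sx.D k (hX0 q d) z = d.sx.D k (fun z => deriv d.Φ (uf d.l z)) z +
        d.sx.D k (fun z : VV n => deriv d.Θ (d.l z.1)) z :=
      D_add d.sx hU cu.s0 cx.s0 k hz
    rw [a1, a2, D_comp hU cu k hz, D_comp hU cx k hz, x1, x3]
  · intro k
    obtain ⟨-, -, x1, x2⟩ := D_lev F.pk z k
    have x3 : d.sy.D k (uf d.l) z = pd k d.l z.2 := by
      have := D_add d.sy hU s1 s2 k hz
      rw [x1, x2, zero_add] at this
      exact this
    have a1 : d.sy.D k (fun z => 1 / 100 * (q.σ / q.R) * hY0 q d z) z =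
        1 / 100 * (q.σ / q.R) * d.sy.D k (hY0 q d) z :=
      D_cmul d.sy hU _ (cu.s0.add cy.s0) k hz
    have a2 : d.sy.D k (hY0 q d) z = d.sy.D k (fun z => deriv d.Φ (uf d.l z)) z +
        d.sy.D k (fun z : VV n => deriv d.Θ (d.l z.2)) z :=
      D_add d.sy hU cu.s0 cy.s0 k hz
    rw [a1, a2, D_comp hU cu k hz, D_comp hU cy k hz, x2, x3]

end slots

/-- The size of the derivative of a multiplier. -/
theorem m_ar {s P T p h N m M R r : ℝ} (hs : 0 ≤ s) (hP : |P| ≤ N * (m / R)) (hT : |T| ≤ h * (h / r))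
    (hp : |p| ≤ 2) (hr : 0 < r) (hrR : r ≤ R) (hN : 0 ≤ N) (hNh : N ≤ h) (hhM : h ≤ M)
    (hm : 0 ≤ m) (hmM : m ≤ M) :
    |1 / 100 * s * (P * p + T * p)| ≤ 1 / 100 * s * (h * (4 * M / r)) := by
  rw [abs_mul, abs_of_nonneg (by positivity : 0 ≤ 1 / 100 * s)]
  refine mul_le_mul_of_nonneg_left ?_ (by positivity)
  have hh : 0 ≤ h := hN.trans hNh
  have hM : 0 ≤ M := hm.trans hmM
  have hR : 0 < R := hr.trans_le hrR
  have h1 : |P * p| ≤ h * (M / r) * 2 := by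
    rw [abs_mul]
    refine mul_le_mul (hP.trans ?_) hp (abs_nonneg _) (by positivity)
    gcongr
  have h2 : |T * p| ≤ h * (M / r) * 2 := by
    rw [abs_mul]
    refine mul_le_mul (hT.trans ?_) hp (abs_nonneg _) (by positivity)
    gcongr
  refine (abs_add_le _ _).trans ((add_le_add h1 h2).trans (le_of_eq ?_))
  ring

theorem r_le {R : ℝ} (h : 1 ≤ R) : √R ≤ R := by
  rw [Real.sqrt_le_left (by linarith)]
  nlinarith

/-- **The slot `y`.** -/
theorem Cd.oy (c : Cd n q d e z) (hF : 1 / 100 * ny q d z ^ 2 ≤ d.sy.F (wY0 q d) z) :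
    H168.INF.OY q d z := by
  have F := c.fk
  have hR := F.R0
  have hR1 := F.R1
  have hσ := F.σ0
  have hσ1 := F.σ1
  have n1 := c.nn1
  have ft := c.ft.ft
  have m1 := n1.trans (ft.ny_ge z)
  have G0 := c.G0
  have sn := c.sn
  have M1 := F.M1
  have t0 := F.pk.Θd0 hR (d.l z.2)
  have hs : 0 < √q.R := Real.sqrt_pos.2 hR
  have hs1 : 1 ≤ √q.R := Real.one_le_sqrt.2 hR1
  have sb := (c.ft.sb z c.hz).2
  have hE : hY0 q d z = deriv d.Φ (uf d.l z) + deriv d.Θ (d.l z.2) := rfl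
  have hh : 0 ≤ hY0 q d z := by rw [hE]; linarith
  have hh1 : 1 ≤ hY0 q d z := by rw [hE]; linarith
  have hhM : hY0 q d z ≤ ny q d z := by
    rw [hE]; unfold ny H269.INF.nn; linarith
  have hb := bb_le (q := q) hR c.ft.sc.el m1
  have hb' : bb q e (ny q d z) ≤ ny q d z := by
    refine hb.trans ?_
    rw [div_le_iff₀ hs]
    nlinarith
  have L1 := sb.L1'
  have L2 := sb.m4
  rw [sz1] at L1
  rw [sz3] at L2
  have hx : d.l z.2 ≤ d.l₀ q + 5 * q.R := by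
    have h1 : d.l z.2 < d.l₀ q + 16 / 5 * q.R := c.hz.2.1
    linarith
  have hP := P_le c.ft.sc F.pk F.ℓ5 c.hz
  have hT := T_le c.ft.sc c.ft.st F.pk (m := hY0 q d z) (τ := d.l z.2) hh1 (by
    rw [hE]; linarith)
  refine own_of (s := q.σ / q.R) (C := Ct n q) (M := ny q d z) (b := bb q e (ny q d z))
    (r := √q.R) (h := hY0 q d) (Ct_nn n q) m1 (by positivity) ?_ hh hhM hs c.pt c.cy hF c.b2
    (fun i => ?_) L1 L2 hb (by linarith) ?_ (fun i => ?_) ?_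
  · rw [div_le_iff₀ hR]
    linarith
  · have := sb.d1' i
    rwa [sz0] at this
  · rw [ft.toFC0.bb_sq (by linarith)]
    have h1 := mul_le_mul_of_nonneg_right c.eC (by positivity : 0 ≤ ny q d z / q.R)
    calc 20000 * Ct n q * (e * ny q d z / q.R) =
        20000 * Ct n q * e * (ny q d z / q.R) := by ring
      _ ≤ q.σ * (ny q d z / q.R) := h1
      _ = _ := by ring
  · rw [c.Dh.2 i]
    refine m_ar (by positivity) hP hT (pd_le c.hq F.pk hx i) hs (r_le hR1) (by linarith) ?_ hhM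
      (by linarith) (ft.ny_ge z)
    rw [hE]; linarith
  · rw [Fintype.card_fin]
    exact c.rC

/-- **The slot `x`.** -/
theorem Cd.ox (c : Cd n q d e z) (hF : 1 / 100 * nx q d z ^ 2 ≤ d.sx.F (wX0 q d) z) :
    H168.INF.OX q d z := by
  have F := c.fk
  have hR := F.R0
  have hR1 := F.R1
  have hσ := F.σ0
  have hσ1 := F.σ1
  have n1 := c.nn1
  have ft := c.ft.ft
  have m1 := n1.trans (ft.nx_ge z)
  have G0 := c.G0
  have sn := c.sn
  have M1 := F.M1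
  have t0 := F.pk.Θd0 hR (d.l z.1)
  have hs : 0 < √q.R := Real.sqrt_pos.2 hR
  have hs1 : 1 ≤ √q.R := Real.one_le_sqrt.2 hR1
  have sb := (c.ft.sb z c.hz).1
  have hE : hX0 q d z = deriv d.Φ (uf d.l z) + deriv d.Θ (d.l z.1) := rfl
  have hh : 0 ≤ hX0 q d z := by rw [hE]; linarith
  have hh1 : 1 ≤ hX0 q d z := by rw [hE]; linarith
  have hhM : hX0 q d z ≤ nx q d z := by
    rw [hE]; unfold nx H269.INF.nn; linarith
  have hb := bb_le (q := q) hR c.ft.sc.el m1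
  have hb' : bb q e (nx q d z) ≤ nx q d z := by
    refine hb.trans ?_
    rw [div_le_iff₀ hs]
    nlinarith
  have L1 := sb.L1
  have L2 := sb.m1
  rw [sz1] at L1
  rw [sz3] at L2
  have hx : d.l z.1 ≤ d.l₀ q + 5 * q.R := by
    have h1 : d.l z.1 < d.l₀ q + 16 / 5 * q.R := c.hz.1
    linarith
  have hP := P_le c.ft.sc F.pk F.ℓ5 c.hz
  have hT := T_le c.ft.sc c.ft.st F.pk (m := hX0 q d z) (τ := d.l z.1) hh1 (by
    rw [hE]; linarith)
  refine own_of (s := q.σ / q.R) (C := Ct n q) (M := nx q d z) (b := bb q e (nx q d z))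
    (r := √q.R) (h := hX0 q d) (Ct_nn n q) m1 (by positivity) ?_ hh hhM hs c.ps c.cx hF c.b1
    (fun i => ?_) L1 L2 hb (by linarith) ?_ (fun i => ?_) ?_
  · rw [div_le_iff₀ hR]
    linarith
  · have := sb.d1 i
    rwa [sz0] at this
  · rw [ft.toFC0.bb_sq (by linarith)]
    have h1 := mul_le_mul_of_nonneg_right c.eC (by positivity : 0 ≤ nx q d z / q.R)
    calc 20000 * Ct n q * (e * nx q d z / q.R) =
        20000 * Ct n q * e * (nx q d z / q.R) := by ring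
      _ ≤ q.σ * (nx q d z / q.R) := h1
      _ = _ := by ring
  · rw [c.Dh.1 i]
    refine m_ar (by positivity) hP hT (pd_le c.hq F.pk hx i) hs (r_le hR1) (by linarith) ?_ hhM
      (by linarith) (ft.nx_ge z)
    rw [hE]; linarith
  · rw [Fintype.card_fin]
    exact c.rC

/-- The error. -/
def eO (n : ℕ) (q : Cst) : ℝ := min 1 (q.σ / (20000 * (Ct n q + 1)))

theorem eO_nb (n : ℕ) : NB_c' (eO n) := fun _ => rfl

theorem eO_ev (n : ℕ) : EvC fun q => 0 < eO n q ∧ eO n q ≤ 1 := by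
  refine EvC.pos.mono fun q hq => ⟨?_, min_le_left _ _⟩
  have h1 : 0 < q.σ := hq.2.1.2.1
  have := Ct_nn n q
  exact lt_min one_pos (by positivity)

/-- **Row O2.** -/
theorem rowO2 (hn : 1 ≤ n) : H168.INF.RowO2 n := by
  have h1 := ev_ft hn (eO_nb n) (eO_ev n)
  have h2 : EvC fun q => 400 * (Ct n q + 8 * (n : ℝ) ^ 2 * Ct n q) ≤ √q.R := by
    have h := EvC.at_R (fun q t => 400 * (Ct n q + 8 * (n : ℝ) ^ 2 * Ct n q) ≤ √t)
      fun q => Real.tendsto_sqrt_atTop.eventually_ge_atTop _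
    exact h.mono fun q hq => hq
  have h3 : EvC fun q => n * q.ε ≤ 1 / 2 := by
    refine EvC.at_ε (fun _ t => n * t ≤ 1 / 2) fun _ => ?_
    have : (0 : ℝ) < 1 / (2 * (n + 1)) := by positivity
    refine ev_sml this fun t h0 ht => ?_
    rw [le_div_iff₀ (by positivity)] at ht
    nlinarith
  have hℓ : (16 / 5 : ℝ) ≤ 5 := by norm_num
  refine ((((h1.and h2).and h3).and ((ev_cert0 hn hℓ).and (ev_gain hn hℓ))).and
    ((evInf.and (evEps n)).and ((rowU n).and EvC.pos))).mono ?_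
  rintro q ⟨⟨⟨⟨a1, a2⟩, a3⟩, a4, a5⟩, ⟨a6, a7⟩, a8, a9⟩ d h z hq hu
  have ft := a1 d h
  have F : Fk n (16 / 5) q.κ₁ q.σ q.e₁ q d := ft.ft.toFC0.toFk
  have hR := F.R0
  have hε := F.ε1
  have hσ := F.σ0
  have b1 : ∀ i j, |d.sx.s i j z| ≤ 2 := fun i j => by
    have h1 : |d.s₁ z.1 i j - (1 : Matrix (Fin n) (Fin n) ℝ) i j| ≤ q.ε := by
      have := (H657.W.Rg.t1 h.rg).cl i j 0 (by norm_num) z.1
      simpa using this
    have h2 : |(1 : Matrix (Fin n) (Fin n) ℝ) i j| ≤ 1 := by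
      rw [Matrix.one_apply]; split_ifs <;> simp
    show |d.s₁ z.1 i j| ≤ 2
    have := abs_sub_abs_le_abs_sub (d.s₁ z.1 i j) ((1 : Matrix (Fin n) (Fin n) ℝ) i j)
    linarith
  have b2 : ∀ i j, |d.sy.s i j z| ≤ 2 := fun i j => by
    have h1 : |d.s₂ z.2 i j - (1 : Matrix (Fin n) (Fin n) ℝ) i j| ≤ q.ε := by
      have := (H657.W.Rg.t2 h.rg).cl i j 0 (by norm_num) z.2
      simpa using this
    have h2 : |(1 : Matrix (Fin n) (Fin n) ℝ) i j| ≤ 1 := by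
      rw [Matrix.one_apply]; split_ifs <;> simp
    show |d.s₂ z.2 i j| ≤ 2
    have := abs_sub_abs_le_abs_sub (d.s₂ z.2 i j) ((1 : Matrix (Fin n) (Fin n) ℝ) i j)
    linarith
  have ps : ∀ A : Fin n → ℝ, 0 ≤ H168.INF.ss d.sx A z := fun A => by
    have h1 : ∑ i, A i ^ 2 ≤ 2 * H168.INF.ss d.sx A z := (a8 d h z A A).1.1
    have h2 : 0 ≤ ∑ i, A i ^ 2 := Finset.sum_nonneg fun _ _ => sq_nonneg _
    linarith
  have pt : ∀ A : Fin n → ℝ, 0 ≤ H168.INF.ss d.sy A z := fun A => by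
    have h1 : ∑ i, A i ^ 2 ≤ 2 * H168.INF.ss d.sy A z := (a8 d h z A A).1.2
    have h2 : 0 ≤ ∑ i, A i ^ 2 := Finset.sum_nonneg fun _ _ => sq_nonneg _
    linarith
  have eC : 20000 * Ct n q * eO n q ≤ q.σ := by
    have C0 := Ct_nn n q
    have h1 : eO n q ≤ q.σ / (20000 * (Ct n q + 1)) := min_le_right _ _
    rw [le_div_iff₀ (by positivity)] at h1
    have h2 : 0 < eO n q := ft.sc.ep
    nlinarith
  -- the condition at points of `UL`
  have mk : z ∈ UL (16 / 5) q.κ₁ q d → Cd n q d (eO n q) z := fun hz =>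
    { ft := ft
      hq := a6
      hz := hz
      ps := ps
      pt := pt
      c0 := a4 d h z hz
      lx := fun A B => (lev_lo a6 a7 h A B).1 (by
        have h1 : d.l z.1 < d.l₀ q + 16 / 5 * q.R := hz.1
        linarith)
      ly := fun A B => (lev_lo a6 a7 h A B).2 (by
        have h1 : d.l z.2 < d.l₀ q + 16 / 5 * q.R := hz.2.1
        linarith)
      b1 := b1
      b2 := b2
      eC := eC
      rC := a2 }
  -- the points are not deep
  have hL := lvG a6 h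
  have hl1 := hL.l1
  have hl := h.lev.lit
  have e0 : d.l₀ q = lam0 q.R d.kap d.Gs := rfl
  have h0 := a6.σ0
  have hs1 := a6.σ1
  have h5 : 5000 * q.R ≤ q.R / q.σ := by
    rw [le_div_iff₀ h0]
    nlinarith
  have rt := rt_add hR.le (sq0 (z.1 - z.2))
  have hnn := Real.sqrt_nonneg (HY.sq (z.1 - z.2))
  have key : 2 * lam0 q.R d.kap d.Gs - 1 / 50 * (q.R / q.σ) <
      levG n q.σ q.R d.kap d.Gs z.1 + levG n q.σ q.R d.kap d.Gs z.2 +
        81 / 100 * √(HY.sq (z.1 - z.2)) := by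
    rw [← hl, ← e0]
    rw [e0] at hl1
    linarith
  have key' : 2 * lam0 q.R d.kap d.Gs - 1 / 50 * (q.R / q.σ) <
      levG n q.σ q.R d.kap d.Gs z.2 + levG n q.σ q.R d.kap d.Gs z.1 +
        81 / 100 * √(HY.sq (z.2 - z.1)) := by
    rw [H404.INF.sq_swap]
    linarith
  constructor
  · rintro ⟨l1, l2, l3⟩
    have hz : z ∈ UL (16 / 5) q.κ₁ q d := ⟨by linarith, by linarith, hq⟩
    have w2 : 2 / 25 < √(HY.sq (wR n q.σ q.R z.2)) := not_deep h0 hs1 hR (by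
      rw [← hl, ← e0]; exact l2) key'
    have c := mk hz
    refine c.oy ?_
    have h1 := (a5 d h z hz _ (h.Θd0 hR (d.l z.2))).2 w2.le
    have e1 : (fun k => d.sy.D k (WW (d.F q) d.l (gi d.s₁)) z + deriv d.Θ (d.l z.2) *
        pd k d.l z.2) = fun k => d.sy.D k (wY0 q d) z := funext fun k => (c.Dy k).symm
    rw [e1] at h1
    exact h1
  · rintro ⟨l1, l2, l3⟩
    have hz : z ∈ UL (16 / 5) q.κ₁ q d := ⟨by linarith, by linarith, hq⟩
    have w1 : 2 / 25 < √(HY.sq (wR n q.σ q.R z.1)) := not_deep h0 hs1 hR (by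
      rw [← hl, ← e0]; exact l2) key
    have c := mk hz
    refine c.ox ?_
    have h1 := (a5 d h z hz _ (h.Θd0 hR (d.l z.1))).1 w1.le
    have e1 : (fun k => d.sx.D k (WW (d.F q) d.l (gi d.s₁)) z + deriv d.Θ (d.l z.1) *
        pd k d.l z.1) = fun k => d.sx.D k (wX0 q d) z := funext fun k => (c.Dx k).symm
    rw [e1] at h1
    exact h1

end Vale.Agent.P088.R2.H313.INF
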